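import Vale.Agent.P214.SUB.B

set_option linter.all false

/-! Block SUBCYL, part C: the main statement. -/

open Set Filter Topology MeasureTheory Metric
open scoped RealInnerProductSpace ENNReal NNReal

namespace Vale.Agent.P214

variable {E : Type*} [NormedAddCommGroup E] [InnerProductSpace ℝ E] [FiniteDimensional ℝ E]
  [MeasurableSpace E] [BorelSpace E]
variable {m : ℕ} {U : Set E} {V : IntegralVarifold m U}

namespace SUB

lemma om_eq (m : ℕ) : Skel.om m = DEN.om m := by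
  unfold Skel.om DEN.om
  rw [measureReal_def]
  rcases Nat.eq_zero_or_pos m with h0 | h0
  · subst h0
    have h1 : ball (0 : EuclideanSpace ℝ (Fin 0)) 1 = closedBall 0 1 := by
      ext y
      have hy : y = 0 := Subsingleton.elim _ _
      subst hy
      simp
    rw [h1]
  · have : Nonempty (Fin m) := ⟨⟨0, h0⟩⟩
    rw [Measure.addHaar_closedBall_eq_addHaar_ball]

/-- **SUBCYL**: near a good point, the translated varifold, restricted to one slab-cylinder, is
`IntCyl` on all smaller cylinders, with small height, mass defect and excess. -/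
theorem subcyl (hU : IsOpen U) (hst : V.IsStationary) {x : E} (hx : Skel.GoodPt V x) {ε : ℝ}
    (hε : 0 < ε) : ∀ᶠ r₁ in 𝓝[>] (0:ℝ), closedBall x (2 * r₁) ⊆ U ∧ ∀ r, 0 < r → r ≤ r₁ →
      Skel.IntCyl m (V.mult x) (V.tangent x) 0 r (ε * r) ε (cylMeas V x r₁) (trP V x) ∧
      Skel.exc (V.tangent x) (cylMeas V x r₁) (trP V x) 0 r ≤ ε * r ^ m := by
  set T := V.tangent x with hT
  set Q := V.mult x with hQ
  have hfin : Module.finrank ℝ T = m := hx.tan.1
  have hom := DEN.om_pos m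
  obtain ⟨R, hR0, hR⟩ : ∃ R > 0, closedBall x R ⊆ U :=
    nhds_basis_closedBall.mem_iff.1 (hU.mem_nhds hx.spt.1)
  -- choose the height precision
  obtain ⟨e, he0, he1, heε, hlow, hup⟩ : ∃ e : ℝ, 0 < e ∧ e ≤ 1 / 4 ∧ 2 * e ≤ ε ∧
      Q * DEN.om m - ε ≤ (Q * DEN.om m - e) * (1 - e) ^ m ∧
      (Q * DEN.om m + e) * (1 + 2 * e) ^ m ≤ Q * DEN.om m + ε := by
    have hc1 : Tendsto (fun e : ℝ => (Q * DEN.om m - e) * (1 - e) ^ m) (𝓝[>] 0)
        (𝓝 ((Q * DEN.om m - 0) * (1 - 0) ^ m)) :=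
      ((by fun_prop : Continuous fun e : ℝ => (Q * DEN.om m - e) * (1 - e) ^ m).tendsto
        0).mono_left nhdsWithin_le_nhds
    have hc2 : Tendsto (fun e : ℝ => (Q * DEN.om m + e) * (1 + 2 * e) ^ m) (𝓝[>] 0)
        (𝓝 ((Q * DEN.om m + 0) * (1 + 2 * 0) ^ m)) :=
      ((by fun_prop : Continuous fun e : ℝ => (Q * DEN.om m + e) * (1 + 2 * e) ^ m).tendsto
        0).mono_left nhdsWithin_le_nhds
    have h1 := hc1.eventually (lt_mem_nhds (show Q * DEN.om m - ε
      < (Q * DEN.om m - 0) * (1 - 0) ^ m by simp; exact hε))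
    have h2 := hc2.eventually (gt_mem_nhds (show (Q * DEN.om m + 0) * (1 + 2 * 0) ^ m
      < Q * DEN.om m + ε by simp; exact hε))
    have h3 : ∀ᶠ e in 𝓝[>] (0:ℝ), e ∈ Ioc (0:ℝ) (1 / 4) := Ioc_mem_nhdsGT (by norm_num)
    have h4 : ∀ᶠ e in 𝓝[>] (0:ℝ), e ∈ Ioc (0:ℝ) (ε / 2) := Ioc_mem_nhdsGT (by positivity)
    obtain ⟨e, ⟨he1, he2⟩, he3, he4⟩ := ((h1.and h2).and (h3.and h4)).exists
    exact ⟨e, he3.1, he3.2, by linarith [he4.2], he1.le, he2.le⟩
  -- the three limits
  have hheight := hx.height e he0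
  obtain ⟨s₁, hs₁, hh⟩ := mem_nhdsGT_iff_exists_Ioo_subset.1 hheight
  have hs₁' : (0:ℝ) < s₁ := hs₁
  have hmass1 := hx.mass.eventually (lt_mem_nhds (show Q * DEN.om m - e < Q * DEN.om m by linarith))
  have hmass2 := hx.mass.eventually (gt_mem_nhds (show Q * DEN.om m < Q * DEN.om m + e by linarith))
  obtain ⟨s₂, hs₂, hm⟩ := mem_nhdsGT_iff_exists_Ioo_subset.1 (hmass1.and hmass2)
  have hs₂' : (0:ℝ) < s₂ := hs₂
  set η : ℝ := ε / (2 ^ m * (Module.finrank ℝ E + 1)) with hη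
  have hη0 : 0 < η := by positivity
  obtain ⟨s₃, hs₃, hex⟩ := mem_nhdsGT_iff_exists_Ioo_subset.1 (hx.excess η hη0)
  have hs₃' : (0:ℝ) < s₃ := hs₃
  filter_upwards [Ioo_mem_nhdsGT (show 0 < R / 2 by positivity),
    Ioo_mem_nhdsGT (show 0 < s₁ / 2 by positivity),
    Ioo_mem_nhdsGT (show 0 < s₂ / 2 by positivity),
    Ioo_mem_nhdsGT (show 0 < s₃ / 2 by positivity)] with r₁ hr1 hr2 hr3 hr4
  have hr₁ : 0 < r₁ := hr1.1
  have hrR : 2 * r₁ ≤ R := by linarith [hr1.2]
  have hh' : ∀ s, 0 < s → s ≤ 2 * r₁ → ∀ z ∈ V.spt ∩ closedBall x s,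
      ‖(z - x) - proj (V.tangent x) (z - x)‖ ≤ e * s :=
    fun s hs hs2 => hh ⟨hs, by linarith [hr2.2]⟩
  refine ⟨(closedBall_subset_closedBall hrR).trans hR, fun r hr hrr => ?_⟩
  have hcyl := cylStat_all hU hst hfin he0 he1 hr₁ hrR hR hh' hr hrr
  have hmb := mass_bounds V he0 he1 hr₁ hrR hR hh' hr hrr
  have hrm : 0 < r ^ m := by positivity
  refine ⟨⟨?_, T.zero_mem, hr, ?_, ?_⟩, ?_⟩
  · -- slab height
    refine ⟨hcyl.fin, hcyl.meas, hcyl.proj, hcyl.dimT, hcyl.isOpen, ?_, hcyl.stat⟩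
    filter_upwards [hcyl.slab] with y hy hyb
    refine (hy hyb).trans ?_
    gcongr
  · filter_upwards [ae_int V he0 he1 hr₁ hh'] with y hy _
    exact hy
  · -- mass
    have h1 : (Q * DEN.om m - e) * ((1 - e) * r) ^ m ≤ V.weight.real (closedBall x ((1 - e) * r)) := by
      have h2 := (hm (show (1 - e) * r ∈ Ioo 0 s₂ from
        ⟨by have : 0 < 1 - e := by linarith
            positivity, by nlinarith [hr3.2]⟩)).1
      have h3 : 0 < ((1 - e) * r) ^ m := by
        have : 0 < 1 - e := by linarith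
        positivity
      rw [lt_div_iff₀ h3] at h2
      exact h2.le
    have h4 : V.weight.real (closedBall x ((1 + 2 * e) * r))
        ≤ (Q * DEN.om m + e) * ((1 + 2 * e) * r) ^ m := by
      have h2 := (hm (show (1 + 2 * e) * r ∈ Ioo 0 s₂ from
        ⟨by positivity, by nlinarith [hr3.2]⟩)).2
      have h3 : 0 < ((1 + 2 * e) * r) ^ m := by positivity
      rw [div_lt_iff₀ h3] at h2
      exact h2.le
    rw [mul_pow] at h1 h4
    rw [om_eq, abs_le]
    constructor
    · have h5 := h1.trans hmb.1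
      have h6 : (Q * DEN.om m - ε) * r ^ m ≤ ((Q * DEN.om m - e) * (1 - e) ^ m) * r ^ m := by
        gcongr
      nlinarith
    · have h5 := hmb.2.trans h4
      have h6 : ((Q * DEN.om m + e) * (1 + 2 * e) ^ m) * r ^ m ≤ (Q * DEN.om m + ε) * r ^ m := by
        gcongr
      nlinarith
  · have h1 := hex (show 2 * r ∈ Ioo 0 s₃ from ⟨by positivity, by linarith [hr4.2]⟩)
    refine (exc_le hU hst hfin he0 he1 hr₁ hrR hR hh' hr hrr h1).trans ?_
    rw [hη, mul_pow]
    have h2 : (0:ℝ) < Module.finrank ℝ E + 1 := by positivity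
    have h3 : (Module.finrank ℝ E : ℝ) * (ε / (2 ^ m * (Module.finrank ℝ E + 1)) * (2 ^ m * r ^ m))
        = (Module.finrank ℝ E : ℝ) / (Module.finrank ℝ E + 1) * (ε * r ^ m) := by
      field_simp
    rw [h3]
    have h4 : (Module.finrank ℝ E : ℝ) / (Module.finrank ℝ E + 1) ≤ 1 := by
      rw [div_le_one h2]; linarith
    calc _ ≤ 1 * (ε * r ^ m) := by gcongr
      _ = _ := one_mul _

/-- the translated set `{Θ ≥ Q}` -/
def KK (V : IntegralVarifold m U) (x : E) : Set E := {y | y + x ∈ DEN.KQ V (V.mult x)}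

lemma zero_mem_KK {x : E} (hx : Skel.GoodPt V x) : (0:E) ∈ KK V x := by
  show (0:E) + x ∈ DEN.KQ V (V.mult x)
  rw [zero_add]; exact hx.KQ

/-- lower bound of the mass ratios at the points of `KK`, for the restricted measure -/
lemma ratio_KK {x y : E} {r₁ s : ℝ} (hU' : closedBall x (2 * r₁) ⊆ U) (hr₁ : 0 < r₁)
    (hy : y ∈ KK V x) (hs : 0 < s) (hb : ball y s ⊆ reg (V.tangent x) r₁)
    (hb' : closedBall y s ⊆ ball 0 (2 * r₁)) :
    (V.mult x : ℝ) * cg m ≤ ratio m (cylMeas V x r₁) y s := by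
  have h1 := hy.2 s hs (by
    intro z hz
    refine hU' ?_
    have h2 : z - x ∈ ball (0:E) (2 * r₁) := hb' (by
      rw [mem_closedBall, dist_eq_norm] at hz ⊢
      rwa [show z - x - y = z - (y + x) by abel])
    rw [mem_ball_zero_iff] at h2
    rw [mem_closedBall, dist_eq_norm]; exact h2.le)
  refine h1.trans (le_of_eq ?_)
  unfold ratio cylMeas
  congr 1
  have h2 : ∫ z in reg (V.tangent x) r₁, cut y s z ∂(V.weight.map (fun y => y - x))
      = ∫ z, cut y s z ∂(V.weight.map (fun y => y - x)) := by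
    refine setIntegral_eq_integral_of_forall_compl_eq_zero fun z hz => cut_eq_zero hs ?_
    by_contra hcon
    exact hz (hb (by rw [mem_ball, dist_eq_norm]; exact not_le.1 hcon))
  rw [h2, (emb x).integral_map]
  refine integral_congr_ae (Eventually.of_forall fun z => ?_)
  unfold cut
  show _ = prof (‖z - x - y‖ ^ 2 / s ^ 2)
  rw [show z - x - y = z - (y + x) by abel]

/-- density of the projection of `KK` -/
lemma dens_KK {x : E} (hx : Skel.GoodPt V x) {ε : ℝ} (hε : 0 < ε) :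
    ∀ᶠ r in 𝓝[>] (0:ℝ), μH[m] (DEN.disc (V.tangent x) r \
      ((V.tangent x).starProjection '' (KK V x ∩ closedBall 0 r))) ≤ ENNReal.ofReal (ε * r ^ m) := by
  filter_upwards [hx.dens ε hε] with r hr
  have h1 : (V.tangent x).starProjection '' (KK V x ∩ closedBall 0 r)
      = DEN.projKQ V (V.mult x) (V.tangent x) x r := by
    unfold DEN.projKQ KK
    ext t
    constructor
    · rintro ⟨y, ⟨hy1, hy2⟩, rfl⟩
      rw [mem_closedBall_zero_iff] at hy2
      refine ⟨y + x, ⟨hy1, ?_⟩, ?_⟩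
      · rw [mem_closedBall, dist_eq_norm, add_sub_cancel_right]; exact hy2
      · simp [proj]
    · rintro ⟨y, ⟨hy1, hy2⟩, rfl⟩
      rw [mem_closedBall, dist_eq_norm] at hy2
      refine ⟨y - x, ⟨?_, ?_⟩, rfl⟩
      · show y - x + x ∈ DEN.KQ V (V.mult x)
        rwa [sub_add_cancel]
      · rwa [mem_closedBall_zero_iff]
  rw [h1]; exact hr

end SUB

end Vale.Agent.P214
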