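import Vale.Agent.P214.Skel.Top

set_option linter.all false

/-! Block SUBCYL (helper342), part A: translation of local stationarity data and of approximate
tangent planes. -/

open Set Filter Topology MeasureTheory Metric
open scoped RealInnerProductSpace ENNReal NNReal

namespace Vale.Agent.P214

variable {E : Type*} [NormedAddCommGroup E] [InnerProductSpace ℝ E] [FiniteDimensional ℝ E]
  [MeasurableSpace E] [BorelSpace E]
variable {m : ℕ} {U : Set E} {V : IntegralVarifold m U}

namespace SUB

/-- translation by `-x` -/
lemma emb (x : E) : MeasurableEmbedding (fun y : E => y - x) :=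
  (MeasurableEquiv.subRight x).measurableEmbedding

/-- translated local stationarity data -/
lemma translate {O : Set E} {ν : Measure E} {P : E → E →L[ℝ] E} (h : LocStat m O ν P) (x : E) :
    LocStat m {y | y + x ∈ O} (ν.map (fun y => y - x)) (fun y => P (y + x)) where
  isOpen := h.isOpen.preimage (by fun_prop : Continuous fun y : E => y + x)
  meas := by
    rw [(emb x).aestronglyMeasurable_map_iff]
    refine h.meas.congr (Eventually.of_forall fun y => ?_)
    simp
  proj := by
    rw [(emb x).ae_map_iff]
    filter_upwards [h.proj] with y hy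
    simpa using hy
  stat := by
    intro f v hf hc hs
    rw [(emb x).integral_map]
    have h1 := h.stat (fun y => f (y - x)) v (hf.comp (contDiff_id.sub contDiff_const))
      (hc.comp_homeomorph (Homeomorph.subRight x)) (by
        intro y hy
        have h2 : y - x ∈ tsupport f := by
          have h3 : tsupport (fun y => f (y - x)) = (fun y => y - x) ⁻¹' tsupport f :=
            tsupport_comp_eq_preimage f (Homeomorph.subRight x)
          rw [h3] at hy
          exact hy
        have h4 := hs h2
        simpa using h4)
    rw [← h1]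
    refine integral_congr_ae (Eventually.of_forall fun y => ?_)
    have h2 : fderiv ℝ (fun y => f (y - x)) y = fderiv ℝ f (y - x) := by
      rw [fderiv_comp_sub]
    simp only [h2, sub_add_cancel]

/-- approximate tangent planes are translation invariant -/
lemma tangent_translate {μ : Measure E} {x y : E} {q : ℕ} {T : Submodule ℝ E}
    (h : IsApproxTangent m μ y q T) : IsApproxTangent m (μ.map (fun y => y - x)) (y - x) q T := by
  refine ⟨h.1, fun f hf hc => ?_⟩
  have h1 := h.2 f hf hc
  refine h1.congr fun r => ?_
  rw [(emb x).integral_map]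
  simp

/-- approximate tangent planes only depend on the measure near the point -/
lemma tangent_local {μ : Measure E} {y : E} {q : ℕ} {T : Submodule ℝ E} {S : Set E}
    (hS : MeasurableSet S) (hy : S ∈ 𝓝 y) (h : IsApproxTangent m μ y q T) :
    IsApproxTangent m (μ.restrict S) y q T := by
  refine ⟨h.1, fun f hf hc => ?_⟩
  have h1 := h.2 f hf hc
  refine h1.congr' ?_
  obtain ⟨δ, hδ, hball⟩ := Metric.mem_nhds_iff.1 hy
  obtain ⟨R, hR⟩ := hc.isBounded.exists_norm_le
  set R' := max R 1 with hR'
  have hR'0 : 0 < R' := lt_of_lt_of_le one_pos (le_max_right _ _)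
  filter_upwards [Ioo_mem_nhdsGT (show 0 < δ / R' by positivity)] with r hr
  congr 1
  symm
  refine setIntegral_eq_integral_of_forall_compl_eq_zero fun z hz => ?_
  by_contra hne
  have h2 : r⁻¹ • (z - y) ∈ tsupport f := subset_tsupport _ hne
  have h3 := (hR _ h2).trans (le_max_left R 1)
  rw [norm_smul, norm_inv, Real.norm_of_nonneg hr.1.le, inv_mul_eq_div, div_le_iff₀ hr.1] at h3
  refine hz (hball ?_)
  rw [mem_ball, dist_eq_norm]
  have h4 := hr.2
  rw [lt_div_iff₀ hR'0] at h4
  linarith

/-- tilt and operator norm -/
lemma tilt_le_norm (S T : Submodule ℝ E) :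
    FV.tilt T S.starProjection ≤ Module.finrank ℝ E * ‖proj S - proj T‖ ^ 2 := by
  rw [← FV.hs_co_comp]
  unfold FV.hs
  have h1 : ∀ k, ‖((FV.co T).comp S.starProjection) (stdOrthonormalBasis ℝ E k)‖ ^ 2
      ≤ ‖proj S - proj T‖ ^ 2 := by
    intro k
    set b := stdOrthonormalBasis ℝ E k with hb
    have hb1 : ‖b‖ = 1 := (stdOrthonormalBasis ℝ E).orthonormal.1 k
    have h2 : ((FV.co T).comp S.starProjection) b = FV.co T ((proj S - proj T) b) := by
      rw [ContinuousLinearMap.comp_apply, ContinuousLinearMap.sub_apply, map_sub]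
      unfold proj
      rw [FV.co_star, sub_zero]
    rw [h2]
    have h3 := FV.norm_co_le T ((proj S - proj T) b)
    have h4 : ‖(proj S - proj T) b‖ ≤ ‖proj S - proj T‖ * ‖b‖ := ContinuousLinearMap.le_opNorm _ _
    rw [hb1, mul_one] at h4
    exact pow_le_pow_left₀ (norm_nonneg _) (h3.trans h4) 2
  calc _ ≤ ∑ _k : Fin (Module.finrank ℝ E), ‖proj S - proj T‖ ^ 2 :=
        Finset.sum_le_sum fun k _ => h1 k
    _ = _ := by simp

end SUB

end Vale.Agent.P214
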