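import Vale.Agent.P214.SUB.A

set_option linter.all false

/-! Block SUBCYL, part B: at a good point the translated varifold is `IntCyl` on all small
cylinders (one measure for all scales). -/

open Set Filter Topology MeasureTheory Metric
open scoped RealInnerProductSpace ENNReal NNReal

namespace Vale.Agent.P214

variable {E : Type*} [NormedAddCommGroup E] [InnerProductSpace ℝ E] [FiniteDimensional ℝ E]
  [MeasurableSpace E] [BorelSpace E]
variable {m : ℕ} {U : Set E} {V : IntegralVarifold m U}

namespace SUB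

/-- the translated tangent projections -/
noncomputable def trP (V : IntegralVarifold m U) (x : E) (y : E) : E →L[ℝ] E :=
  proj (V.tangent (y + x))

/-- the slab-cylinder of radius and height `r` around the origin -/
def reg (T : Submodule ℝ E) (r : ℝ) : Set E := FV.slabSet T (ball 0 r) 0 r

/-- the weight, translated so that `x` is the origin, and restricted to the slab-cylinder -/
noncomputable def cylMeas (V : IntegralVarifold m U) (x : E) (r : ℝ) : Measure E :=
  (V.weight.map (fun y => y - x)).restrict (reg (V.tangent x) r)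

lemma mem_reg {T : Submodule ℝ E} {r : ℝ} {y : E} :
    y ∈ reg T r ↔ ‖T.starProjection y‖ < r ∧ ‖FV.co T y‖ ≤ r := by
  unfold reg FV.slabSet
  simp

lemma measurableSet_reg (T : Submodule ℝ E) (r : ℝ) : MeasurableSet (reg T r) :=
  FV.measurableSet_slabSet isOpen_ball _ _

lemma reg_subset (T : Submodule ℝ E) {r : ℝ} (hr : 0 < r) : reg T r ⊆ ball 0 (2 * r) := by
  intro y hy
  rw [mem_reg] at hy
  rw [mem_ball_zero_iff]
  have h1 := FV.norm_sq_star_add_co T y
  have h2 : ‖T.starProjection y‖ ^ 2 < r ^ 2 := by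
    have := norm_nonneg (T.starProjection y); nlinarith [hy.1]
  have h3 : ‖FV.co T y‖ ^ 2 ≤ r ^ 2 := by
    have := norm_nonneg (FV.co T y); nlinarith [hy.2]
  nlinarith [norm_nonneg y]

/-- the restricted translated measure in terms of the restricted weight -/
lemma cylMeas_eq (V : IntegralVarifold m U) (x : E) {r R : ℝ} (hr : 0 < r) (hrR : 2 * r ≤ R) :
    cylMeas V x r =
      ((V.weight.restrict (closedBall x R)).map (fun y => y - x)).restrict
        (reg (V.tangent x) r) := by
  unfold cylMeas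
  rw [Measure.restrict_map (emb x).measurable (measurableSet_reg _ _),
    Measure.restrict_map (emb x).measurable (measurableSet_reg _ _),
    Measure.restrict_restrict ((emb x).measurable (measurableSet_reg _ _)), inter_eq_left.2]
  intro y hy
  have h1 := reg_subset (V.tangent x) hr hy
  rw [mem_ball_zero_iff] at h1
  rw [mem_closedBall, dist_eq_norm]
  linarith

/-- height bound at all scales below `r₁`, transported: almost every point of the cylinder of
radius `r ≤ r₁` has height at most `ε r` -/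
lemma ae_height (V : IntegralVarifold m U) {x : E} {ε r₁ : ℝ} (hε0 : 0 < ε) (hε : ε ≤ 1 / 4)
    (hr₁ : 0 < r₁)
    (hh : ∀ s, 0 < s → s ≤ 2 * r₁ → ∀ z ∈ V.spt ∩ closedBall x s,
      ‖(z - x) - proj (V.tangent x) (z - x)‖ ≤ ε * s) {r : ℝ} (hr : 0 < r) :
    ∀ᵐ y ∂(cylMeas V x r₁), ‖(V.tangent x).starProjection y‖ < r →
      ‖FV.co (V.tangent x) y‖ ≤ 2 * ε * r := by
  unfold cylMeas
  rw [ae_restrict_iff' (measurableSet_reg _ _), (emb x).ae_map_iff]
  filter_upwards [V.ae_mem_spt] with z hz hreg hzr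
  have h1 := reg_subset (V.tangent x) hr₁ hreg
  rw [mem_ball_zero_iff] at h1
  rcases eq_or_ne (z - x) 0 with h0 | h0
  · rw [h0, map_zero, norm_zero]; positivity
  have h2 := hh ‖z - x‖ (norm_pos_iff.2 h0) h1.le z ⟨hz, by rw [mem_closedBall, dist_eq_norm]⟩
  have h3 : ‖FV.co (V.tangent x) (z - x)‖ ≤ ε * ‖z - x‖ := h2
  have h4 : ‖z - x‖ ≤ ‖(V.tangent x).starProjection (z - x)‖ + ‖FV.co (V.tangent x) (z - x)‖ := by
    conv_lhs => rw [← FV.star_add_co (V.tangent x) (z - x)]
    exact norm_add_le _ _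
  have h5 : ‖FV.co (V.tangent x) (z - x)‖ ≤ ε * (r + ‖FV.co (V.tangent x) (z - x)‖) :=
    h3.trans (by gcongr; linarith)
  nlinarith [norm_nonneg (FV.co (V.tangent x) (z - x))]

/-- the cylindrical stationarity data at all scales `r ≤ r₁` -/
lemma cylStat_all (hU : IsOpen U) (hst : V.IsStationary) {x : E}
    (hfin : Module.finrank ℝ (V.tangent x) = m) {ε r₁ R : ℝ} (hε0 : 0 < ε)
    (hε : ε ≤ 1 / 4) (hr₁ : 0 < r₁) (hrR : 2 * r₁ ≤ R) (hR : closedBall x R ⊆ U)
    (hh : ∀ s, 0 < s → s ≤ 2 * r₁ → ∀ z ∈ V.spt ∩ closedBall x s,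
      ‖(z - x) - proj (V.tangent x) (z - x)‖ ≤ ε * s) {r : ℝ} (hr : 0 < r) (hr1 : r ≤ r₁) :
    FV.CylStat m (V.tangent x) (ball 0 r) (2 * ε * r) (cylMeas V x r₁) (trP V x) := by
  have hfm := V.finite_restrict hR
  have hls := V.locStat hst hR
  have htr := translate hls x
  have hO : {y : E | y + x ∈ ball x R} = ball 0 R := by
    ext y; simp
  rw [hO] at htr
  have hfm2 : IsFiniteMeasure ((V.weight.restrict (closedBall x R)).map (fun y => y - x)) :=
    inferInstance
  have hmain : FV.CylStat m (V.tangent x) (ball 0 r₁) (2 * ε * r₁ + ‖(0:E)‖)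
      (((V.weight.restrict (closedBall x R)).map (fun y => y - x)).restrict
        (FV.slabSet (V.tangent x) (ball 0 r₁) 0 r₁)) (trP V x) := by
    refine htr.cylStat hfin isOpen_ball (c := 0) (h := 2 * ε * r₁) (h' := r₁) (by positivity)
      (by nlinarith) ?_ ?_
    · exact (reg_subset (V.tangent x) hr₁).trans (ball_subset_ball hrR)
    · have h1 := ae_height V hε0 hε hr₁ hh hr₁
      rw [cylMeas_eq V x hr₁ hrR, ae_restrict_iff' (measurableSet_reg _ _)] at h1
      filter_upwards [h1] with y hy hyS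
      have h2 := hy hyS (mem_reg.1 hyS).1
      rwa [sub_zero]
  have heq : ((V.weight.restrict (closedBall x R)).map (fun y => y - x)).restrict
        (FV.slabSet (V.tangent x) (ball 0 r₁) 0 r₁) = cylMeas V x r₁ :=
    (cylMeas_eq V x hr₁ hrR).symm
  rw [heq] at hmain
  have hmono := hmain.mono isOpen_ball (ball_subset_ball hr1)
  refine ⟨hmono.fin, hmono.meas, hmono.proj, hmono.dimT, hmono.isOpen, ?_, hmono.stat⟩
  filter_upwards [ae_height V hε0 hε hr₁ hh hr] with y hy hyr
  rw [mem_ball_zero_iff] at hyr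
  exact hy hyr

/-- integrality at almost every point -/
lemma ae_int (V : IntegralVarifold m U) {x : E} {ε r₁ : ℝ} (hε0 : 0 < ε) (hε : ε ≤ 1 / 4)
    (hr₁ : 0 < r₁)
    (hh : ∀ s, 0 < s → s ≤ 2 * r₁ → ∀ z ∈ V.spt ∩ closedBall x s,
      ‖(z - x) - proj (V.tangent x) (z - x)‖ ≤ ε * s) :
    ∀ᵐ y ∂(cylMeas V x r₁), ∃ q : ℕ, 1 ≤ q ∧ ∃ S : Submodule ℝ E,
      trP V x y = S.starProjection ∧ IsApproxTangent m (cylMeas V x r₁) y q S := by
  have h1 := ae_height V hε0 hε hr₁ hh hr₁
  have h2 : ∀ᵐ y ∂(cylMeas V x r₁), y ∈ reg (V.tangent x) r₁ :=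
    ae_restrict_mem (measurableSet_reg _ _)
  have h3 : ∀ᵐ y ∂(cylMeas V x r₁), y + x ∈ V.carrier ∧
      IsApproxTangent m V.weight (y + x) (V.mult (y + x)) (V.tangent (y + x)) := by
    unfold cylMeas
    refine ae_restrict_of_ae ?_
    rw [(emb x).ae_map_iff]
    filter_upwards [V.ae_mem_carrier, V.tangent_spec] with z hz hz2
    rw [sub_add_cancel]
    exact ⟨hz, hz2⟩
  filter_upwards [h1, h2, h3] with y hy1 hy2 hy3
  refine ⟨V.mult (y + x), V.mult_pos _ hy3.1, V.tangent (y + x), rfl, ?_⟩
  have h4 := tangent_translate (x := x) hy3.2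
  rw [add_sub_cancel_right] at h4
  refine tangent_local (measurableSet_reg _ _) ?_ h4
  rw [mem_reg] at hy2
  have h5 := hy1 hy2.1
  have h6 : ‖FV.co (V.tangent x) y‖ < r₁ := by nlinarith
  have hopen : IsOpen {z : E | ‖(V.tangent x).starProjection z‖ < r₁ ∧
      ‖FV.co (V.tangent x) z‖ < r₁} :=
    (isOpen_lt (V.tangent x).starProjection.continuous.norm continuous_const).inter
      (isOpen_lt (FV.co (V.tangent x)).continuous.norm continuous_const)
  refine mem_of_superset (hopen.mem_nhds ⟨hy2.1, h6⟩) fun z hz => ?_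
  rw [mem_reg]
  exact ⟨hz.1, hz.2.le⟩

lemma isom (x : E) : Isometry (fun y : E => y - x) :=
  Isometry.of_dist_eq fun y z => by simp [dist_eq_norm]

/-- absolute continuity of the translated measure -/
lemma cylMeas_ac (V : IntegralVarifold m U) (x : E) (r : ℝ) :
    cylMeas V x r ≪ (μH[m] : Measure E) := by
  have h1 : V.weight ≪ (μH[m] : Measure E) :=
    (withDensity_absolutelyContinuous _ _).trans Measure.restrict_le_self.absolutelyContinuous
  have h2 : V.weight.map (fun y => y - x) ≪ (μH[m] : Measure E) := by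
    intro S hS
    rw [(emb x).map_apply]
    refine h1 ?_
    have h3 := (isom x).hausdorffMeasure_preimage (d := (m:ℝ))
      (Or.inl (Nat.cast_nonneg m)) S
    rw [h3]
    exact measure_mono_null inter_subset_left hS
  exact Measure.restrict_le_self.absolutelyContinuous.trans h2

/-- the Hausdorff measure is at most the translated weight on the translated carrier -/
lemma cylMeas_low (V : IntegralVarifold m U) (x : E) (r : ℝ) :
    ∃ c : Set E, (∀ᵐ y ∂(cylMeas V x r), y ∈ c) ∧
      ∀ S, MeasurableSet S → S ⊆ c → μH[m] S ≤ cylMeas V x r S := by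
  refine ⟨{y | y + x ∈ V.carrier ∧ y ∈ reg (V.tangent x) r}, ?_, ?_⟩
  · have h2 : ∀ᵐ y ∂(cylMeas V x r), y ∈ reg (V.tangent x) r :=
      ae_restrict_mem (measurableSet_reg _ _)
    have h3 : ∀ᵐ y ∂(cylMeas V x r), y + x ∈ V.carrier := by
      unfold cylMeas
      refine ae_restrict_of_ae ?_
      rw [(emb x).ae_map_iff]
      filter_upwards [V.ae_mem_carrier] with z hz
      rwa [sub_add_cancel]
    filter_upwards [h2, h3] with y hy1 hy2 using ⟨hy2, hy1⟩
  · intro S hSm hS
    have h1 : cylMeas V x r S = V.weight ((fun y => y - x) ⁻¹' S) := by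
      unfold cylMeas
      rw [Measure.restrict_apply hSm, (emb x).map_apply, inter_eq_left.2 (fun y hy => (hS hy).2)]
    have h2 : (μH[m] : Measure E) S = μH[m] ((fun y => y - x) ⁻¹' S) := by
      have h3 := (isom x).hausdorffMeasure_preimage (d := (m:ℝ))
        (Or.inl (Nat.cast_nonneg m)) S
      rw [h3, inter_eq_left.2]
      intro y _
      exact ⟨y + x, by simp⟩
    have hSm' : MeasurableSet ((fun y => y - x) ⁻¹' S) := (emb x).measurable hSm
    have hcar : (fun y => y - x) ⁻¹' S ⊆ V.carrier := by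
      intro y hy
      have := (hS hy).1
      simpa using this
    rw [h1, h2, V.weight_eq]
    unfold weightOf
    rw [withDensity_apply _ hSm', Measure.restrict_restrict hSm', inter_eq_left.2 hcar]
    calc μH[m] ((fun y => y - x) ⁻¹' S) = ∫⁻ _ in (fun y => y - x) ⁻¹' S, 1 ∂μH[m] := by
          rw [setLIntegral_one]
      _ ≤ _ := by
          refine setLIntegral_mono' hSm' fun y hy => ?_
          exact_mod_cast V.mult_pos y (hcar hy)

/-- mass of the cylinders against masses of balls -/
lemma mass_bounds (V : IntegralVarifold m U) {x : E} {ε r₁ R : ℝ} (hε0 : 0 < ε)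
    (hε : ε ≤ 1 / 4) (hr₁ : 0 < r₁) (hrR : 2 * r₁ ≤ R) (hR : closedBall x R ⊆ U)
    (hh : ∀ s, 0 < s → s ≤ 2 * r₁ → ∀ z ∈ V.spt ∩ closedBall x s,
      ‖(z - x) - proj (V.tangent x) (z - x)‖ ≤ ε * s) {r : ℝ} (hr : 0 < r) (hr1 : r ≤ r₁) :
    V.weight.real (closedBall x ((1 - ε) * r)) ≤
        (cylMeas V x r₁).real (Skel.cylSet (V.tangent x) 0 r) ∧
      (cylMeas V x r₁).real (Skel.cylSet (V.tangent x) 0 r) ≤
        V.weight.real (closedBall x ((1 + 2 * ε) * r)) := by
  set T := V.tangent x with hT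
  have hcylm : MeasurableSet (Skel.cylSet T (0:E) r) :=
    (isOpen_ball.preimage T.starProjection.continuous).measurableSet
  have hmass : (cylMeas V x r₁) (Skel.cylSet T 0 r)
      = V.weight ((fun y => y - x) ⁻¹' (Skel.cylSet T 0 r ∩ reg T r₁)) := by
    unfold cylMeas
    rw [Measure.restrict_apply hcylm, (emb x).map_apply]
  have hfinR : V.weight (closedBall x R) < ⊤ := V.locFinite _ hR (isCompact_closedBall x R)
  constructor
  · rw [measureReal_def, measureReal_def, hmass]
    refine ENNReal.toReal_mono ?_ (measure_mono ?_)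
    · refine ((measure_mono ?_).trans_lt hfinR).ne
      intro y hy
      have h1 := reg_subset T hr₁ hy.2
      rw [mem_ball_zero_iff] at h1
      rw [mem_closedBall, dist_eq_norm]; linarith
    · intro y hy
      rw [mem_closedBall, dist_eq_norm] at hy
      have h1 := FV.norm_star_le T (y - x)
      have h2 := FV.norm_co_le T (y - x)
      have h3 : (1 - ε) * r < r := by nlinarith
      refine ⟨?_, ?_⟩
      · show T.starProjection (y - x) ∈ ball 0 r
        rw [mem_ball_zero_iff]; linarith
      · show y - x ∈ reg T r₁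
        rw [mem_reg]
        exact ⟨by linarith, by linarith⟩
  · have hae : ∀ᵐ z ∂V.weight, z ∈ (fun y => y - x) ⁻¹' (Skel.cylSet T 0 r ∩ reg T r₁) →
        z ∈ closedBall x ((1 + 2 * ε) * r) := by
      have h1 := ae_height V hε0 hε hr₁ hh hr
      unfold cylMeas at h1
      rw [ae_restrict_iff' (measurableSet_reg _ _), (emb x).ae_map_iff] at h1
      filter_upwards [h1] with z hz hzm
      have h2 : ‖T.starProjection (z - x)‖ < r := by
        have := hzm.1
        change T.starProjection (z - x) ∈ ball 0 r at this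
        rwa [mem_ball_zero_iff] at this
      have h3 := hz hzm.2 h2
      rw [mem_closedBall, dist_eq_norm]
      calc ‖z - x‖ = ‖T.starProjection (z - x) + FV.co T (z - x)‖ := by rw [FV.star_add_co]
        _ ≤ ‖T.starProjection (z - x)‖ + ‖FV.co T (z - x)‖ := norm_add_le _ _
        _ ≤ r + 2 * ε * r := by gcongr
        _ = (1 + 2 * ε) * r := by ring
    rw [measureReal_def, measureReal_def, hmass]
    refine ENNReal.toReal_mono ?_ (measure_mono_ae hae)
    refine ((measure_mono (closedBall_subset_closedBall ?_)).trans_lt hfinR).ne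
    nlinarith

/-- the excess on the cylinders -/
lemma exc_le (hU : IsOpen U) (hst : V.IsStationary) {x : E}
    (hfin : Module.finrank ℝ (V.tangent x) = m) {ε r₁ R η : ℝ} (hε0 : 0 < ε)
    (hε : ε ≤ 1 / 4) (hr₁ : 0 < r₁) (hrR : 2 * r₁ ≤ R) (hR : closedBall x R ⊆ U)
    (hh : ∀ s, 0 < s → s ≤ 2 * r₁ → ∀ z ∈ V.spt ∩ closedBall x s,
      ‖(z - x) - proj (V.tangent x) (z - x)‖ ≤ ε * s) {r : ℝ} (hr : 0 < r) (hr1 : r ≤ r₁)
    (he : ∫ y in ball x (2 * r), ‖proj (V.tangent y) - proj (V.tangent x)‖ ^ 2 ∂V.weight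
      ≤ η * (2 * r) ^ m) :
    Skel.exc (V.tangent x) (cylMeas V x r₁) (trP V x) 0 r
      ≤ Module.finrank ℝ E * (η * (2 * r) ^ m) := by
  set T := V.tangent x with hT
  have hfm := V.finite_restrict hR
  have hls := V.locStat hst hR
  unfold Skel.exc
  have hcylm : MeasurableSet (Skel.cylSet T (0:E) r) :=
    (isOpen_ball.preimage T.starProjection.continuous).measurableSet
  have h1 : ∫ y in Skel.cylSet T 0 r, FV.tilt T (trP V x y) ∂(cylMeas V x r₁)
      = ∫ z in (fun y => y - x) ⁻¹' (Skel.cylSet T 0 r ∩ reg T r₁),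
          FV.tilt T (proj (V.tangent z)) ∂V.weight := by
    unfold cylMeas
    rw [Measure.restrict_restrict hcylm, (emb x).setIntegral_map]
    refine integral_congr_ae (Eventually.of_forall fun z => ?_)
    simp only [trP, sub_add_cancel]
  rw [h1]
  -- a.e. inclusion in the ball of radius 2r
  have hae : ∀ᵐ z ∂V.weight, z ∈ (fun y => y - x) ⁻¹' (Skel.cylSet T 0 r ∩ reg T r₁) →
      z ∈ ball x (2 * r) := by
    have h1 := ae_height V hε0 hε hr₁ hh hr
    unfold cylMeas at h1
    rw [ae_restrict_iff' (measurableSet_reg _ _), (emb x).ae_map_iff] at h1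
    filter_upwards [h1] with z hz hzm
    have h2 : ‖T.starProjection (z - x)‖ < r := by
      have := hzm.1
      change T.starProjection (z - x) ∈ ball 0 r at this
      rwa [mem_ball_zero_iff] at this
    have h3 := hz hzm.2 h2
    rw [mem_ball, dist_eq_norm]
    calc ‖z - x‖ = ‖T.starProjection (z - x) + FV.co T (z - x)‖ := by rw [FV.star_add_co]
      _ ≤ ‖T.starProjection (z - x)‖ + ‖FV.co T (z - x)‖ := norm_add_le _ _
      _ < r + r := by nlinarith
      _ = 2 * r := by ring
  set S := (fun y => y - x) ⁻¹' (Skel.cylSet T 0 r ∩ reg T r₁) with hS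
  have hSm : MeasurableSet S := (emb x).measurable (hcylm.inter (measurableSet_reg _ _))
  have hSsub : S ∩ ball x (2 * r) ⊆ ball x (2 * r) := inter_subset_right
  have h2 : V.weight.restrict S = V.weight.restrict (S ∩ ball x (2 * r)) := by
    refine Measure.restrict_congr_set ?_
    filter_upwards [hae] with z hz
    refine propext ⟨fun h => ⟨h, hz h⟩, fun h => h.1⟩
  rw [h2]
  have hballR : ball x (2 * r) ⊆ closedBall x R :=
    ball_subset_closedBall.trans (closedBall_subset_closedBall (by linarith))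
  have hint : IntegrableOn (fun z => ‖proj (V.tangent z) - proj T‖ ^ 2) (ball x (2 * r))
      V.weight := by
    have h3 := hls.integrableOn_tiltsq (proj T) (ball x (2 * r))
    unfold IntegrableOn at h3 ⊢
    rwa [Measure.restrict_restrict measurableSet_ball, inter_eq_left.2 hballR] at h3
  calc ∫ z in S ∩ ball x (2 * r), FV.tilt T (proj (V.tangent z)) ∂V.weight
      ≤ ∫ z in S ∩ ball x (2 * r), Module.finrank ℝ E * ‖proj (V.tangent z) - proj T‖ ^ 2
          ∂V.weight := by
        refine integral_mono_of_nonneg ?_ ((hint.mono_set hSsub).const_mul _) ?_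
        · exact Eventually.of_forall fun z => FV.tilt_nonneg _ _
        · exact Eventually.of_forall fun z => tilt_le_norm _ _
    _ = Module.finrank ℝ E * ∫ z in S ∩ ball x (2 * r), ‖proj (V.tangent z) - proj T‖ ^ 2
          ∂V.weight := integral_const_mul _ _
    _ ≤ Module.finrank ℝ E * ∫ z in ball x (2 * r), ‖proj (V.tangent z) - proj T‖ ^ 2
          ∂V.weight := by
        refine mul_le_mul_of_nonneg_left ?_ (Nat.cast_nonneg _)
        exact setIntegral_mono_set hint (Eventually.of_forall fun z => by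
          simp only [Pi.zero_apply]; positivity) (Eventually.of_forall hSsub)
    _ ≤ _ := by gcongr

end SUB

end Vale.Agent.P214
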